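import Vale.Agent.P321.R4.H845.Core

/-! Row R2: the overlap with constants polynomial in `1 / q`. -/

set_option autoImplicit false

namespace Vale.Agent.P321

open Finset Polynomial

namespace Cr

open Lt

namespace J845

theorem CO_le {q : ℝ} (hq0 : 0 < q) (hq : q ≤ 1 / 2) : CO q ≤ R4.H101.Pq 8 q := by
  set x : ℝ := 1 / q with hx
  have hx0 : 0 < x := by positivity
  have hx2 : 2 ≤ x := by rw [hx, le_div_iff₀ hq0]; linarith
  have hx1 : 1 ≤ x := by linarith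
  have hq2 : q ^ 2 ≤ 1 / 4 := by nlinarith
  have e1 : min (q ^ 2) ((1 - q ^ 2) / 2) = q ^ 2 := min_eq_left (by linarith)
  have e2 : min (q ^ 2) (1 - q ^ 2) = q ^ 2 := min_eq_left (by linarith)
  have e3 : min q (1 - q) = q := min_eq_left (by linarith)
  have c1 : cc (q ^ 2) ≤ 2 * x := by
    unfold cc
    have h : q ≤ Real.sqrt (2 * q ^ 2) := Real.le_sqrt_of_sq_le (by nlinarith [sq_nonneg q])
    calc 2 / Real.sqrt (2 * q ^ 2) ≤ 2 / q := div_le_div_of_nonneg_left (by norm_num) hq0 h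
      _ = 2 * x := by rw [hx]; ring
  have c1' : 0 ≤ cc (q ^ 2) := (cc_pos (by positivity)).le
  have c2 : cc q ≤ 2 * x := by
    unfold cc
    have h : q ≤ Real.sqrt (2 * q) := Real.le_sqrt_of_sq_le (by nlinarith)
    calc 2 / Real.sqrt (2 * q) ≤ 2 / q := div_le_div_of_nonneg_left (by norm_num) hq0 h
      _ = 2 * x := by rw [hx]; ring
  have k : kap (nu q) 0 = x := by
    unfold kap
    simp only [nu, Matrix.cons_val_zero]
    rw [hx]
    field_simp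
    ring
  have m0 : 0 ≤ (1 - q) ^ 2 * kap (nu q) 0 := by rw [k]; positivity
  have m1 : (1 - q) ^ 2 * kap (nu q) 0 ≤ x := by
    rw [k]
    have : (1 - q) ^ 2 ≤ 1 := by nlinarith
    nlinarith
  have x4 : 1 ≤ x ^ 4 := one_le_pow₀ hx1
  have r0 : 0 ≤ 1 + 12 / (q ^ 2) ^ 2 := by positivity
  have r1 : 1 + 12 / (q ^ 2) ^ 2 ≤ 13 * x ^ 4 := by
    have : 12 / (q ^ 2) ^ 2 = 12 * x ^ 4 := by rw [hx]; field_simp
    rw [this]; linarith
  have hCO : CO q = 2 * (Real.sqrt (3 * (24 * ((1 - q) ^ 2 * kap (nu q) 0) *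
      (cc (q ^ 2) * (1 + 12 / (q ^ 2) ^ 2)) * cc (q ^ 2))) + 2
      + 2 * (24 * ((1 - q) ^ 2 * kap (nu q) 0) * (cc (q ^ 2) * (1 + 12 / (q ^ 2) ^ 2))))
      + ((2 * cc (q ^ 2) + 3) + cc q) := by
    unfold CO CI CB
    rw [e1, e2, e3]
  rw [hCO]
  clear hCO k e1 e2 e3
  generalize (1 - q) ^ 2 * kap (nu q) 0 = A at m0 m1 ⊢
  generalize cc (q ^ 2) = c at c1 c1' ⊢
  generalize 1 + 12 / (q ^ 2) ^ 2 = T at r0 r1 ⊢
  generalize cc q = c' at c2 ⊢
  have r2 : c * T ≤ 2 * x * (13 * x ^ 4) := mul_le_mul c1 r1 r0 (by positivity)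
  have r2' : 0 ≤ c * T := mul_nonneg c1' r0
  have r3 : 24 * A * (c * T) ≤ 24 * x * (2 * x * (13 * x ^ 4)) :=
    mul_le_mul (by linarith) r2 r2' (by positivity)
  have r3' : 0 ≤ 24 * A * (c * T) := mul_nonneg (by linarith) r2'
  have r4 : 24 * A * (c * T) * c ≤ 24 * x * (2 * x * (13 * x ^ 4)) * (2 * x) :=
    mul_le_mul r3 c1 c1' (by positivity)
  have r4' : 0 ≤ 24 * A * (c * T) * c := mul_nonneg r3' c1'
  have r5 : Real.sqrt (3 * (24 * A * (c * T) * c)) ≤ 3 * (24 * A * (c * T) * c) + 1 :=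
    Real.sqrt_le_iff.2 ⟨by linarith, by nlinarith⟩
  have hP : R4.H101.Pq 8 q = 16777216 * x ^ 8 := by
    unfold R4.H101.Pq
    rw [hx]
    push_cast
    rw [div_pow, div_pow, one_pow]
    norm_num
    ring
  rw [hP]
  have p1 : x ≤ x ^ 8 := by simpa using pow_le_pow_right₀ hx1 (show 1 ≤ 8 by norm_num)
  have p6 : x ^ 6 ≤ x ^ 8 := pow_le_pow_right₀ hx1 (by norm_num)
  have p7 : x ^ 7 ≤ x ^ 8 := pow_le_pow_right₀ hx1 (by norm_num)
  have p8 : 1 ≤ x ^ 8 := one_le_pow₀ hx1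
  have s3 : 24 * x * (2 * x * (13 * x ^ 4)) = 624 * x ^ 6 := by ring
  have s4 : 24 * x * (2 * x * (13 * x ^ 4)) * (2 * x) = 1248 * x ^ 7 := by ring
  rw [s3] at r3
  rw [s4] at r4
  linarith

theorem stCore : R4.H101.StCore :=
  ⟨8, by norm_num, fun q hq0 hq K L hK hKL h =>
    overlap_core_ex hq0 (by linarith) K L hK hKL
      ((add_le_add (mul_le_mul_of_nonneg_right (CO_le hq0 hq)
        (Real.rpow_nonneg (by positivity) _))
        (div_le_div_of_nonneg_right (CO_le hq0 hq) (Real.sqrt_nonneg _))).trans h)⟩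

end J845

end Cr

end Vale.Agent.P321
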